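import Mathlib

/-!
# Radial sweep lemma (S0328) — shared definitions

Definitions used by the work packages W1–W5 of the proof of S0328
(`Crest.Agent.Helper20.Sweep`).  No proofs of any result here.
-/

set_option autoImplicit false

namespace Crest.Agent.Helper20.Sweep

/-- Euclidean 3-space. -/
abbrev E3 := EuclideanSpace ℝ (Fin 3)

/-- Gram area of the triangle `p q r` (half the square root of the Gram determinant of
`q - p`, `r - p`). -/
noncomputable def triArea (p q r : E3) : ℝ :=
  Real.sqrt (‖q - p‖ ^ 2 * ‖r - p‖ ^ 2 - inner ℝ (q - p) (r - p) ^ 2) / 2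

/-- Orthogonal projection along `v` (onto `v^⊥`), written exactly as in the statement of S0328. -/
noncomputable def projAlong (v : E3) (y : E3) : E3 := y - (inner ℝ y v / ‖v‖ ^ 2) • v

end Crest.Agent.Helper20.Sweep
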