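import Crest.Agent.Helper20.Sweep.Defs

/-!
# Gram identities for oblique projections (package C-2 / W3 of S0328)

* `gram_proj` : for `x, y, w ⊥ e`, `‖e‖ = 1`, the orthogonal projection `P` along `e + w` satisfies
  `gram (P x) (P y) = gram x y / (1 + ‖w‖²)`.
* `W3_proj_area`, `W3_fan_area`, `W3_affineIndependent`: consequences for Gram areas of triangles.
-/

set_option autoImplicit false

namespace Crest.Agent.Helper20.Sweep

theorem inner_coord (x y : E3) : inner ℝ x y = x 0 * y 0 + x 1 * y 1 + x 2 * y 2 := by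
  simp [PiLp.inner_apply, Fin.sum_univ_three]
  ring

theorem norm_sq_coord (x : E3) : ‖x‖ ^ 2 = x 0 * x 0 + x 1 * x 1 + x 2 * x 2 := by
  rw [EuclideanSpace.real_norm_sq_eq]
  simp [Fin.sum_univ_three]
  ring

/-- The `3 × 3` Gram determinant of three vectors orthogonal to a unit vector vanishes. -/
theorem gram3_perp_zero (e x y w : E3) (he : ‖e‖ = 1) (hx : inner ℝ x e = 0)
    (hy : inner ℝ y e = 0) (hw : inner ℝ w e = 0) :
    ‖x‖ ^ 2 * inner ℝ y w ^ 2 + ‖y‖ ^ 2 * inner ℝ x w ^ 2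
        - 2 * inner ℝ x y * inner ℝ x w * inner ℝ y w
      = ‖w‖ ^ 2 * (‖x‖ ^ 2 * ‖y‖ ^ 2 - inner ℝ x y ^ 2) := by
  have he2 : ‖e‖ ^ 2 = 1 := by rw [he]; norm_num
  rw [norm_sq_coord] at he2
  rw [inner_coord] at hx hy hw
  simp only [inner_coord, norm_sq_coord]
  set x0 := x 0; set x1 := x 1; set x2 := x 2
  set y0 := y 0; set y1 := y 1; set y2 := y 2
  set w0 := w 0; set w1 := w 1; set w2 := w 2
  set e0 := e 0; set e1 := e 1; set e2 := e 2
  -- the determinant of the matrix with rows x, y, w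
  set D : ℝ := x0 * (y1 * w2 - y2 * w1) - x1 * (y0 * w2 - y2 * w0) + x2 * (y0 * w1 - y1 * w0)
    with hD
  have h0 : D * e0 = 0 := by
    have : D * e0 = (y1 * w2 - y2 * w1) * (x0 * e0 + x1 * e1 + x2 * e2)
        - (x1 * w2 - x2 * w1) * (y0 * e0 + y1 * e1 + y2 * e2)
        + (x1 * y2 - x2 * y1) * (w0 * e0 + w1 * e1 + w2 * e2) := by rw [hD]; ring
    rw [this, hx, hy, hw]; ring
  have h1 : D * e1 = 0 := by
    have : D * e1 = -(y0 * w2 - y2 * w0) * (x0 * e0 + x1 * e1 + x2 * e2)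
        + (x0 * w2 - x2 * w0) * (y0 * e0 + y1 * e1 + y2 * e2)
        - (x0 * y2 - x2 * y0) * (w0 * e0 + w1 * e1 + w2 * e2) := by rw [hD]; ring
    rw [this, hx, hy, hw]; ring
  have h2 : D * e2 = 0 := by
    have : D * e2 = (y0 * w1 - y1 * w0) * (x0 * e0 + x1 * e1 + x2 * e2)
        - (x0 * w1 - x1 * w0) * (y0 * e0 + y1 * e1 + y2 * e2)
        + (x0 * y1 - x1 * y0) * (w0 * e0 + w1 * e1 + w2 * e2) := by rw [hD]; ring
    rw [this, hx, hy, hw]; ring
  have hD2 : D ^ 2 = 0 := by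
    have : D ^ 2 = D ^ 2 * (e0 * e0 + e1 * e1 + e2 * e2) := by rw [he2]; ring
    rw [this]
    have : D ^ 2 * (e0 * e0 + e1 * e1 + e2 * e2)
        = (D * e0) ^ 2 + (D * e1) ^ 2 + (D * e2) ^ 2 := by ring
    rw [this, h0, h1, h2]; ring
  have hgram : (w0 * w0 + w1 * w1 + w2 * w2) *
        ((x0 * x0 + x1 * x1 + x2 * x2) * (y0 * y0 + y1 * y1 + y2 * y2)
          - (x0 * y0 + x1 * y1 + x2 * y2) ^ 2)
      - ((x0 * x0 + x1 * x1 + x2 * x2) * (y0 * w0 + y1 * w1 + y2 * w2) ^ 2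
        + (y0 * y0 + y1 * y1 + y2 * y2) * (x0 * w0 + x1 * w1 + x2 * w2) ^ 2
        - 2 * (x0 * y0 + x1 * y1 + x2 * y2) * (x0 * w0 + x1 * w1 + x2 * w2)
          * (y0 * w0 + y1 * w1 + y2 * w2)) = D ^ 2 := by rw [hD]; ring
  linarith

/-- Inner products of projections along a nonzero vector. -/
theorem inner_projAlong (v x y : E3) (hv : v ≠ 0) :
    inner ℝ (projAlong v x) (projAlong v y)
      = inner ℝ x y - inner ℝ x v * inner ℝ y v / ‖v‖ ^ 2 := by
  have hv2 : ‖v‖ ^ 2 ≠ 0 := by positivity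
  unfold projAlong
  simp only [inner_sub_left, inner_sub_right, inner_smul_left, inner_smul_right,
    real_inner_self_eq_norm_sq, RCLike.conj_to_real]
  rw [real_inner_comm y v]
  field_simp
  ring

theorem projAlong_inner_self (v x : E3) (hv : v ≠ 0) : inner ℝ (projAlong v x) v = 0 := by
  have hv2 : ‖v‖ ^ 2 ≠ 0 := by positivity
  unfold projAlong
  rw [inner_sub_left, inner_smul_left, real_inner_self_eq_norm_sq, RCLike.conj_to_real]
  field_simp
  ring

theorem projAlong_add (v x y : E3) : projAlong v (x + y) = projAlong v x + projAlong v y := by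
  unfold projAlong
  rw [inner_add_left, add_div, add_smul]
  abel

theorem projAlong_sub (v x y : E3) : projAlong v (x - y) = projAlong v x - projAlong v y := by
  unfold projAlong
  rw [inner_sub_left, sub_div, sub_smul]
  abel

theorem projAlong_smul (v x : E3) (c : ℝ) : projAlong v (c • x) = c • projAlong v x := by
  unfold projAlong
  rw [inner_smul_left, RCLike.conj_to_real, smul_sub, smul_smul, mul_div_assoc]

/-- `e + w ≠ 0` and `‖e + w‖² = 1 + ‖w‖²` for `w ⊥ e`, `‖e‖ = 1`. -/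
theorem norm_sq_axis (e w : E3) (he : ‖e‖ = 1) (hw : inner ℝ w e = 0) :
    ‖e + w‖ ^ 2 = 1 + ‖w‖ ^ 2 := by
  rw [← real_inner_self_eq_norm_sq, inner_add_left, inner_add_right, inner_add_right,
    real_inner_self_eq_norm_sq, real_inner_self_eq_norm_sq, hw, real_inner_comm w e, hw, he]
  ring

theorem axis_ne_zero (e w : E3) (he : ‖e‖ = 1) (hw : inner ℝ w e = 0) : e + w ≠ 0 := by
  intro h
  have := norm_sq_axis e w he hw
  rw [h, norm_zero] at this
  nlinarith [sq_nonneg ‖w‖]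

/-- Gram determinant after projecting along `e + w`, with `projAlong`. -/
theorem gram_projAlong (e x y w : E3) (he : ‖e‖ = 1) (hx : inner ℝ x e = 0)
    (hy : inner ℝ y e = 0) (hw : inner ℝ w e = 0) :
    ‖projAlong (e + w) x‖ ^ 2 * ‖projAlong (e + w) y‖ ^ 2
        - inner ℝ (projAlong (e + w) x) (projAlong (e + w) y) ^ 2
      = (‖x‖ ^ 2 * ‖y‖ ^ 2 - inner ℝ x y ^ 2) / (1 + ‖w‖ ^ 2) := by
  have hn := axis_ne_zero e w he hw
  have hN := norm_sq_axis e w he hw
  have hpos : (0 : ℝ) < 1 + ‖w‖ ^ 2 := by positivity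
  rw [← real_inner_self_eq_norm_sq (projAlong (e + w) x),
    ← real_inner_self_eq_norm_sq (projAlong (e + w) y),
    inner_projAlong _ _ _ hn, inner_projAlong _ _ _ hn, inner_projAlong _ _ _ hn, hN,
    real_inner_self_eq_norm_sq, real_inner_self_eq_norm_sq]
  have hxn : inner ℝ x (e + w) = inner ℝ x w := by rw [inner_add_right, hx, zero_add]
  have hyn : inner ℝ y (e + w) = inner ℝ y w := by rw [inner_add_right, hy, zero_add]
  rw [hxn, hyn]
  have key := gram3_perp_zero e x y w he hx hy hw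
  rw [eq_div_iff hpos.ne']
  field_simp
  nlinarith [key]

/-- **C-2 (helper26's shape).** Projection Gram identity. -/
theorem gram_proj (e x y w : EuclideanSpace ℝ (Fin 3)) (he : ‖e‖ = 1) (hx : inner ℝ x e = 0)
    (hy : inner ℝ y e = 0) (hw : inner ℝ w e = 0) :
    let n := e + w
    let P := fun z : EuclideanSpace ℝ (Fin 3) => z - (inner ℝ z n / ‖n‖ ^ 2) • n
    ‖P x‖ ^ 2 * ‖P y‖ ^ 2 - (inner ℝ (P x) (P y)) ^ 2
      = (‖x‖ ^ 2 * ‖y‖ ^ 2 - (inner ℝ x y) ^ 2) / (1 + ‖w‖ ^ 2) := by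
  intro n P
  exact gram_projAlong e x y w he hx hy hw

/-- **W3 (projection factor).** Projecting a triangle parallel to `e^⊥` along `e + w`, `w ⊥ e`,
divides the Gram area by `√(1 + ‖w‖²)`. -/
theorem W3_proj_area (e w x y z : E3) (he : ‖e‖ = 1) (hw : inner ℝ w e = 0)
    (hx : inner ℝ (x - z) e = 0) (hy : inner ℝ (y - z) e = 0) :
    triArea (projAlong (e + w) z) (projAlong (e + w) x) (projAlong (e + w) y) =
      triArea z x y / Real.sqrt (1 + ‖w‖ ^ 2) := by
  unfold triArea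
  rw [← projAlong_sub, ← projAlong_sub, gram_projAlong e (x - z) (y - z) w he hx hy hw,
    Real.sqrt_div' _ (by positivity)]
  ring

/-- Gram determinant of the fan vectors `ρ(a + t₁ b)`, `ρ(a + t₂ b)`. -/
theorem gram_fan (a b : E3) (t₁ t₂ ρ : ℝ) :
    ‖ρ • (a + t₁ • b)‖ ^ 2 * ‖ρ • (a + t₂ • b)‖ ^ 2
        - inner ℝ (ρ • (a + t₁ • b)) (ρ • (a + t₂ • b)) ^ 2
      = (ρ ^ 2 * (t₂ - t₁)) ^ 2 * (‖a‖ ^ 2 * ‖b‖ ^ 2 - inner ℝ a b ^ 2) := by
  rw [← real_inner_self_eq_norm_sq, ← real_inner_self_eq_norm_sq]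
  simp only [inner_smul_left, inner_smul_right, inner_add_left, inner_add_right,
    RCLike.conj_to_real, real_inner_self_eq_norm_sq]
  rw [real_inner_comm a b]
  ring

/-- **W3 (fan area).** -/
theorem W3_fan_area (a b p : E3) (t₁ t₂ ρ : ℝ) (h12 : t₁ ≤ t₂) :
    triArea p (p + ρ • (a + t₁ • b)) (p + ρ • (a + t₂ • b)) =
      ρ ^ 2 * (t₂ - t₁) * Real.sqrt (‖a‖ ^ 2 * ‖b‖ ^ 2 - inner ℝ a b ^ 2) / 2 := by
  unfold triArea
  rw [add_sub_cancel_left, add_sub_cancel_left, gram_fan,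
    Real.sqrt_mul (sq_nonneg _), Real.sqrt_sq (mul_nonneg (sq_nonneg ρ) (sub_nonneg.mpr h12))]

/-- **W3 (nondegeneracy).** The projected outer triangle is affinely independent. -/
theorem W3_affineIndependent (e a b w p : E3) (he : ‖e‖ = 1) (ha : inner ℝ a e = 0)
    (hb : inner ℝ b e = 0) (hw : inner ℝ w e = 0) (hab : LinearIndependent ℝ ![a, b])
    (t₁ t₂ ℓ : ℝ) (h12 : t₁ < t₂) (hℓ : 0 < ℓ) :
    AffineIndependent ℝ ![projAlong (e + w) p, projAlong (e + w) (p + ℓ • (a + t₁ • b)),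
      projAlong (e + w) (p + ℓ • (a + t₂ • b))] := by
  rw [LinearIndependent.pair_iff] at hab
  have hn := axis_ne_zero e w he hw
  have hne : inner ℝ (e + w) e = 1 := by
    rw [inner_add_left, hw, real_inner_self_eq_norm_sq, he]; norm_num
  -- `projAlong` kills only multiples of the axis; vectors of `e^⊥` in its kernel vanish
  have hker : ∀ z : E3, inner ℝ z e = 0 → projAlong (e + w) z = 0 → z = 0 := by
    intro z hz hPz
    unfold projAlong at hPz
    have h1 : z = (inner ℝ z (e + w) / ‖e + w‖ ^ 2) • (e + w) := sub_eq_zero.mp hPz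
    have h2 : inner ℝ z e = (inner ℝ z (e + w) / ‖e + w‖ ^ 2) * inner ℝ (e + w) e := by
      conv_lhs => rw [h1]
      rw [inner_smul_left, RCLike.conj_to_real]
    rw [hz, hne, mul_one] at h2
    rw [h1, ← h2, zero_smul]
  rw [affineIndependent_iff_not_collinear_set]
  intro hcol
  rw [collinear_iff_of_mem (p₀ := projAlong (e + w) p) (by simp)] at hcol
  obtain ⟨v, hv⟩ := hcol
  obtain ⟨r₁, hr₁⟩ := hv (projAlong (e + w) (p + ℓ • (a + t₁ • b))) (by simp)
  obtain ⟨r₂, hr₂⟩ := hv (projAlong (e + w) (p + ℓ • (a + t₂ • b))) (by simp)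
  rw [projAlong_add, vadd_eq_add, add_comm] at hr₁ hr₂
  have hr₁' : projAlong (e + w) (ℓ • (a + t₁ • b)) = r₁ • v := add_right_cancel hr₁
  have hr₂' : projAlong (e + w) (ℓ • (a + t₂ • b)) = r₂ • v := add_right_cancel hr₂
  -- the combination `r₂ u₁ - r₁ u₂` is killed by the projection
  have hcomb : projAlong (e + w) (r₂ • (ℓ • (a + t₁ • b)) - r₁ • (ℓ • (a + t₂ • b))) = 0 := by
    rw [projAlong_sub, projAlong_smul _ (ℓ • (a + t₁ • b)) r₂,
      projAlong_smul _ (ℓ • (a + t₂ • b)) r₁, hr₁', hr₂', smul_smul, smul_smul,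
      mul_comm, sub_self]
  have hperp : inner ℝ (r₂ • (ℓ • (a + t₁ • b)) - r₁ • (ℓ • (a + t₂ • b))) e = 0 := by
    simp only [inner_sub_left, inner_smul_left, inner_add_left, ha, hb, RCLike.conj_to_real]
    ring
  have hzero := hker _ hperp hcomb
  have hzero' : (r₂ * ℓ - r₁ * ℓ) • a + (r₂ * ℓ * t₁ - r₁ * ℓ * t₂) • b = 0 := by
    rw [← hzero]
    module
  obtain ⟨hA, hB⟩ := hab _ _ hzero'
  have hr12 : r₂ = r₁ := by
    have : (r₂ - r₁) * ℓ = 0 := by linarith
    rcases mul_eq_zero.mp this with h | h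
    · linarith
    · exact absurd h hℓ.ne'
  have hr1 : r₁ = 0 := by
    rw [hr12] at hB
    have : r₁ * ℓ * (t₁ - t₂) = 0 := by linarith
    rcases mul_eq_zero.mp this with h | h
    · rcases mul_eq_zero.mp h with h | h
      · exact h
      · exact absurd h hℓ.ne'
    · exact absurd h (sub_ne_zero.mpr h12.ne)
  -- hence `P (ℓ u₁) = 0`, so `u₁ = 0`, contradicting independence
  rw [hr1, zero_smul] at hr₁'
  have hperp1 : inner ℝ (ℓ • (a + t₁ • b)) e = 0 := by
    simp only [inner_smul_left, inner_add_left, ha, hb, RCLike.conj_to_real]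
    ring
  have hz1 := hker _ hperp1 hr₁'
  have hz1' : ℓ • a + (ℓ * t₁) • b = 0 := by
    rw [← hz1]
    module
  exact hℓ.ne' (hab _ _ hz1').1

end Crest.Agent.Helper20.Sweep
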