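import Crest.Agent.Helper20.Sweep.Gram

/-!
# Area of the projected fan triangle (package C-6 of S0328)

`projAlong n z = z - (inner ℝ z n / ‖n‖ ^ 2) • n` is literally the projection map of the statement
of S0328 (`projAlong_apply` is `rfl`).
-/

set_option autoImplicit false
open MeasureTheory
open scoped ENNReal

namespace Crest.Agent.Helper20.Sweep

theorem projAlong_apply (n z : E3) : projAlong n z = z - (inner ℝ z n / ‖n‖ ^ 2) • n := rfl

/-- **C-6.** The projected point is orthogonal to the axis. -/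
theorem P_inner_eq_zero (e wc z : E3) (he : ‖e‖ = 1) (hwc : inner ℝ wc e = 0) :
    inner ℝ (projAlong (e + wc) z) (e + wc) = 0 :=
  projAlong_inner_self _ _ (axis_ne_zero e wc he hwc)

/-- Gram area of the projected fan triangle. -/
theorem triArea_proj_fan (e a b wc v : E3) (he : ‖e‖ = 1) (ha : inner ℝ a e = 0)
    (hb : inner ℝ b e = 0) (hwc : inner ℝ wc e = 0) (s₁ s₂ ρ : ℝ) (hs : s₁ ≤ s₂) :
    triArea (projAlong (e + wc) v) (projAlong (e + wc) (v + ρ • (a + s₁ • b)))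
        (projAlong (e + wc) (v + ρ • (a + s₂ • b)))
      = Real.sqrt (‖a‖ ^ 2 * ‖b‖ ^ 2 - inner ℝ a b ^ 2) * ρ ^ 2 * (s₂ - s₁)
          / (2 * Real.sqrt (1 + ‖wc‖ ^ 2)) := by
  have h1 : inner ℝ (v + ρ • (a + s₁ • b) - v) e = 0 := by
    rw [add_sub_cancel_left]
    simp only [inner_smul_left, inner_add_left, ha, hb, RCLike.conj_to_real]
    ring
  have h2 : inner ℝ (v + ρ • (a + s₂ • b) - v) e = 0 := by
    rw [add_sub_cancel_left]
    simp only [inner_smul_left, inner_add_left, ha, hb, RCLike.conj_to_real]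
    ring
  rw [W3_proj_area e wc _ _ v he hwc h1 h2, W3_fan_area a b v s₁ s₂ ρ hs]
  have hpos : (0 : ℝ) < Real.sqrt (1 + ‖wc‖ ^ 2) := Real.sqrt_pos.mpr (by positivity)
  field_simp

/-- **C-6.** `μHE[2]` of the projected fan triangle, given the triangle-area formula `TRI`. -/
theorem proj_triangle_area
    (TRI : ∀ p q r : E3, μHE[2] (convexHull ℝ {p, q, r}) =
      ENNReal.ofReal (Real.sqrt (‖q - p‖ ^ 2 * ‖r - p‖ ^ 2 - (inner ℝ (q - p) (r - p)) ^ 2) / 2))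
    (e a b wc v : E3) (he : ‖e‖ = 1) (ha : inner ℝ a e = 0) (hb : inner ℝ b e = 0)
    (hwc : inner ℝ wc e = 0) (s₁ s₂ ρ : ℝ) (hs : s₁ ≤ s₂) :
    μHE[2] (convexHull ℝ {projAlong (e + wc) v, projAlong (e + wc) (v + ρ • (a + s₁ • b)),
        projAlong (e + wc) (v + ρ • (a + s₂ • b))})
      = ENNReal.ofReal (Real.sqrt (‖a‖ ^ 2 * ‖b‖ ^ 2 - inner ℝ a b ^ 2) * ρ ^ 2 * (s₂ - s₁)
          / (2 * Real.sqrt (1 + ‖wc‖ ^ 2))) := by
  rw [TRI]
  congr 1
  exact triArea_proj_fan e a b wc v he ha hb hwc s₁ s₂ ρ hs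

/-- **C-6, unfolded form** (the projection written as the lambda of the statement of S0328). -/
theorem proj_triangle_area'
    (TRI : ∀ p q r : E3, μHE[2] (convexHull ℝ {p, q, r}) =
      ENNReal.ofReal (Real.sqrt (‖q - p‖ ^ 2 * ‖r - p‖ ^ 2 - (inner ℝ (q - p) (r - p)) ^ 2) / 2))
    (e a b wc v : E3) (he : ‖e‖ = 1) (ha : inner ℝ a e = 0) (hb : inner ℝ b e = 0)
    (hwc : inner ℝ wc e = 0) (s₁ s₂ ρ : ℝ) (hs : s₁ ≤ s₂) :
    μHE[2] (convexHull ℝ
        {(fun z : E3 => z - (inner ℝ z (e + wc) / ‖e + wc‖ ^ 2) • (e + wc)) v,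
         (fun z : E3 => z - (inner ℝ z (e + wc) / ‖e + wc‖ ^ 2) • (e + wc))
            (v + ρ • (a + s₁ • b)),
         (fun z : E3 => z - (inner ℝ z (e + wc) / ‖e + wc‖ ^ 2) • (e + wc))
            (v + ρ • (a + s₂ • b))})
      = ENNReal.ofReal (Real.sqrt (‖a‖ ^ 2 * ‖b‖ ^ 2 - inner ℝ a b ^ 2) * ρ ^ 2 * (s₂ - s₁)
          / (2 * Real.sqrt (1 + ‖wc‖ ^ 2))) :=
  proj_triangle_area TRI e a b wc v he ha hb hwc s₁ s₂ ρ hs

/-- **W3 (nondegeneracy), unfolded form.** -/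
theorem affineIndependent_proj_fan (e a b w p : E3) (he : ‖e‖ = 1) (ha : inner ℝ a e = 0)
    (hb : inner ℝ b e = 0) (hw : inner ℝ w e = 0) (hab : LinearIndependent ℝ ![a, b])
    (t₁ t₂ ℓ : ℝ) (h12 : t₁ < t₂) (hℓ : 0 < ℓ) :
    AffineIndependent ℝ ![(fun z : E3 => z - (inner ℝ z (e + w) / ‖e + w‖ ^ 2) • (e + w)) p,
      (fun z : E3 => z - (inner ℝ z (e + w) / ‖e + w‖ ^ 2) • (e + w)) (p + ℓ • (a + t₁ • b)),
      (fun z : E3 => z - (inner ℝ z (e + w) / ‖e + w‖ ^ 2) • (e + w)) (p + ℓ • (a + t₂ • b))] :=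
  W3_affineIndependent e a b w p he ha hb hw hab t₁ t₂ ℓ h12 hℓ

end Crest.Agent.Helper20.Sweep
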