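import Mathlib

/-!
# Riemann-sum comparison for an arbitrary tagged partition (package C-1 / W4 of S0328)
-/

set_option autoImplicit false
open MeasureTheory

namespace Crest.Agent.Helper20.Sweep

/-- The `ℕ`-indexed version of a `Fin (N+1)`-indexed partition (constant after `N`). -/
noncomputable def natPart (N : ℕ) (t : Fin (N + 1) → ℝ) : ℕ → ℝ :=
  fun k => t ⟨min k N, by omega⟩

theorem natPart_castSucc (N : ℕ) (t : Fin (N + 1) → ℝ) (i : Fin N) :
    natPart N t i = t i.castSucc := by
  unfold natPart
  congr 1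
  apply Fin.ext
  simp

theorem natPart_succ (N : ℕ) (t : Fin (N + 1) → ℝ) (i : Fin N) :
    natPart N t (i + 1) = t i.succ := by
  unfold natPart
  congr 1
  apply Fin.ext
  simp

theorem natPart_zero (N : ℕ) (t : Fin (N + 1) → ℝ) : natPart N t 0 = t 0 := by
  unfold natPart
  congr 1

theorem natPart_last (N : ℕ) (t : Fin (N + 1) → ℝ) : natPart N t N = t (Fin.last N) := by
  unfold natPart
  congr 1
  apply Fin.ext
  simp

theorem natPart_mono (N : ℕ) (t : Fin (N + 1) → ℝ) (ht : Monotone t) : Monotone (natPart N t) := by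
  intro j k hjk
  unfold natPart
  apply ht
  rw [Fin.le_def]
  simp only
  omega

theorem natPart_mem (N : ℕ) (t : Fin (N + 1) → ℝ) (ht : Monotone t) (k : ℕ) :
    natPart N t k ∈ Set.Icc (t 0) (t (Fin.last N)) := by
  unfold natPart
  constructor
  · apply ht
    rw [Fin.le_def]
    simp
  · apply ht
    rw [Fin.le_def]
    simp

/-- **C-1 (helper26's shape).** Riemann comparison for an arbitrary partition: if `G i` is within
`ε` of `g` on the whole `i`-th cell, then the Riemann-type sum is within `ε * (length)` of the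
integral. -/
theorem sum_sub_integral_le (N : ℕ) (t : Fin (N + 1) → ℝ) (ht : StrictMono t) (g : ℝ → ℝ)
    (hg : ContinuousOn g (Set.Icc (t 0) (t (Fin.last N)))) (G : Fin N → ℝ) (ε : ℝ)
    (hG : ∀ i : Fin N, ∀ τ ∈ Set.Icc (t i.castSucc) (t i.succ), |G i - g τ| ≤ ε) :
    |∑ i : Fin N, G i * (t i.succ - t i.castSucc) - ∫ τ in (t 0)..(t (Fin.last N)), g τ|
      ≤ ε * (t (Fin.last N) - t 0) := by
  classical
  have htm : Monotone t := ht.monotone
  set a : ℕ → ℝ := natPart N t with ha
  have hamono : Monotone a := natPart_mono N t htm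
  have hint : ∀ k < N, IntervalIntegrable g volume (a k) (a (k + 1)) := by
    intro k _
    apply ContinuousOn.intervalIntegrable
    apply hg.mono
    rw [Set.uIcc_of_le (hamono (Nat.le_succ k))]
    intro x hx
    exact ⟨le_trans (natPart_mem N t htm k).1 hx.1, le_trans hx.2 (natPart_mem N t htm (k + 1)).2⟩
  have hsplit : ∑ k ∈ Finset.range N, ∫ x in a k..a (k + 1), g x = ∫ x in a 0..a N, g x :=
    intervalIntegral.sum_integral_adjacent_intervals hint
  have h0 : a 0 = t 0 := natPart_zero N t
  have hN : a N = t (Fin.last N) := natPart_last N t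
  rw [h0, hN] at hsplit
  have hsplit' : ∑ i : Fin N, ∫ x in t i.castSucc..t i.succ, g x
      = ∫ x in t 0..t (Fin.last N), g x := by
    rw [← hsplit, ← Fin.sum_univ_eq_sum_range (fun k => ∫ x in a k..a (k + 1), g x) N]
    apply Finset.sum_congr rfl
    intro i _
    rw [ha, natPart_castSucc, natPart_succ]
  have htel : ∑ i : Fin N, (t i.succ - t i.castSucc) = t (Fin.last N) - t 0 := by
    have h1 : ∑ k ∈ Finset.range N, (a (k + 1) - a k) = a N - a 0 := Finset.sum_range_sub a N
    rw [h0, hN] at h1
    rw [← h1, ← Fin.sum_univ_eq_sum_range (fun k => a (k + 1) - a k) N]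
    apply Finset.sum_congr rfl
    intro i _
    rw [ha, natPart_castSucc, natPart_succ]
  rw [← hsplit', ← Finset.sum_sub_distrib]
  have hterm : ∀ i : Fin N,
      |G i * (t i.succ - t i.castSucc) - ∫ x in t i.castSucc..t i.succ, g x|
        ≤ ε * (t i.succ - t i.castSucc) := by
    intro i
    have hle : t i.castSucc ≤ t i.succ := htm (Fin.castSucc_lt_succ (i := i)).le
    have hgi : IntervalIntegrable g volume (t i.castSucc) (t i.succ) := by
      have := hint i i.isLt
      rwa [ha, natPart_castSucc, natPart_succ] at this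
    have hconst : ∫ _x in t i.castSucc..t i.succ, G i = G i * (t i.succ - t i.castSucc) := by
      rw [intervalIntegral.integral_const]
      simp [mul_comm]
    rw [← hconst, ← intervalIntegral.integral_sub intervalIntegrable_const hgi]
    have hb := intervalIntegral.norm_integral_le_of_norm_le_const
      (a := t i.castSucc) (b := t i.succ) (f := fun x => G i - g x) (C := ε) (by
        intro x hx
        rw [Set.uIoc_of_le hle] at hx
        rw [Real.norm_eq_abs]
        exact hG i x ⟨hx.1.le, hx.2⟩)
    rw [Real.norm_eq_abs, abs_of_nonneg (sub_nonneg.mpr hle)] at hb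
    exact hb
  calc |∑ i : Fin N, (G i * (t i.succ - t i.castSucc) - ∫ x in t i.castSucc..t i.succ, g x)|
      ≤ ∑ i : Fin N, |G i * (t i.succ - t i.castSucc) - ∫ x in t i.castSucc..t i.succ, g x| :=
        Finset.abs_sum_le_sum_abs _ _
    _ ≤ ∑ i : Fin N, ε * (t i.succ - t i.castSucc) := Finset.sum_le_sum (fun i _ => hterm i)
    _ = ε * (t (Fin.last N) - t 0) := by rw [← Finset.mul_sum, htel]

/-- **W4 (Riemann).** The same with named endpoints and the factors in the other order. -/
theorem W4_riemann (f : ℝ → ℝ) (α β : ℝ) (hf : ContinuousOn f (Set.Icc α β)) (N : ℕ)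
    (t : Fin (N + 1) → ℝ) (ht : StrictMono t) (h0 : t 0 = α) (hN : t (Fin.last N) = β)
    (g : Fin N → ℝ) (E : ℝ)
    (hg : ∀ i : Fin N, ∀ τ ∈ Set.Icc (t i.castSucc) (t i.succ), |g i - f τ| ≤ E) :
    |∑ i : Fin N, (t i.succ - t i.castSucc) * g i - ∫ τ in α..β, f τ| ≤ (β - α) * E := by
  subst h0 hN
  have h := sum_sub_integral_le N t ht f hf g E hg
  have e1 : ∑ i : Fin N, (t i.succ - t i.castSucc) * g i
      = ∑ i : Fin N, g i * (t i.succ - t i.castSucc) :=
    Finset.sum_congr rfl (fun i _ => mul_comm _ _)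
  rw [e1, mul_comm]
  exact h

/-- **W4 (partition membership).** Every point of `[α, β]` lies in a cell of the partition. -/
theorem W4_partition_mem (α β : ℝ) (hαβ : α < β) (N : ℕ) (t : Fin (N + 1) → ℝ)
    (ht : StrictMono t) (h0 : t 0 = α) (hN : t (Fin.last N) = β) (τ : ℝ)
    (hτ : τ ∈ Set.Icc α β) : ∃ i : Fin N, τ ∈ Set.Icc (t i.castSucc) (t i.succ) := by
  classical
  subst h0 hN
  -- the largest index `j` with `t j ≤ τ`
  by_contra hcon
  push Not at hcon
  have key : ∀ k : ℕ, ∀ hk : k < N + 1, t ⟨k, hk⟩ ≤ τ := by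
    intro k
    induction k with
    | zero => intro hk; exact hτ.1
    | succ k ih =>
      intro hk
      have hk' : k < N := by omega
      have h1 := ih (by omega)
      by_contra hlt
      push Not at hlt
      apply hcon ⟨k, hk'⟩
      exact ⟨h1, hlt.le⟩
  have hlast : t (Fin.last N) ≤ τ := key N (by omega)
  have hτeq : τ = t (Fin.last N) := le_antisymm hτ.2 hlast
  have hNpos : 0 < N := by
    rcases Nat.eq_zero_or_pos N with h | h
    · subst h
      exact absurd hαβ (lt_irrefl _)
    · exact h
  apply hcon ⟨N - 1, by omega⟩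
  refine ⟨key (N - 1) (by omega), ?_⟩
  rw [hτeq]
  apply ht.monotone
  rw [Fin.le_def]
  simp
  omega

end Crest.Agent.Helper20.Sweep
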